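import Vale.Agent.P154B7.Main
import Vale.Agent.Results.P154.AllOffspringLaws

/-!
The reconstruction threshold of the 3-state and 4-state Potts channels, for the broadcast process
on a probability space, observed through the unlabelled tree and the spins on level `n`.
-/

namespace Vale.Agent.Results.P154.ABroadcastProcess

open Vale.Agent.P154 Vale.Agent.P154B7

universe u

theorem result :
    (∀ lam : ℝ, -1 / 2 ≤ lam → lam ≤ 1 →
      (∀ d : ℕ, 2 ≤ d → Threshold.{u} (regularOffspring d) 3 lam d) ∧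
      ∀ d : ℝ, 0 < d → Threshold.{u} (poissonOffspring d) 3 lam d) ∧
    (∀ lam : ℝ, 0 ≤ lam → lam ≤ 1 →
      (∀ d : ℕ, 2 ≤ d → Threshold.{u} (regularOffspring d) 4 lam d) ∧
      ∀ d : ℝ, 0 < d → Threshold.{u} (poissonOffspring d) 4 lam d) := by
  obtain ⟨h1, h2, h3, h4, -⟩ := AllOffspringLaws.result
  exact ⟨fun lam h0 hl =>
    ⟨fun d hd => threshold_of (reg0 d) (reg1 d) 0 (potts3 h0 hl) (h1 d hd lam h0 hl),
      fun d hd => threshold_of (poi0 hd) (poi1 d) 0 (potts3 h0 hl) (h2 d hd lam h0 hl)⟩,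
    fun lam h0 hl =>
    ⟨fun d hd => threshold_of (reg0 d) (reg1 d) 0 (potts4 h0 hl) (h3 d hd lam h0 hl),
      fun d hd => threshold_of (poi0 hd) (poi1 d) 0 (potts4 h0 hl) (h4 d hd lam h0 hl)⟩⟩

end Vale.Agent.Results.P154.ABroadcastProcess
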